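import Vale.Agent.P038.H214.Key

/-!
# Seymour's second neighbourhood conjecture: the outer problem and the contradiction

`N v` is the closed out-neighbourhood of `v`.
-/

namespace Vale.Agent.P038.H811

open Finset Vale.Agent.P038.H214

variable {V : Type*} [Fintype V] [DecidableEq V]

/-- Incidence count, upper bound. -/
theorem inc_le (F H : V → Finset V) (h : ∀ a b, b ∈ F a → a ∈ H b → a = b) :
    ∑ a, (F a).card + ∑ b, (H b).card ≤ Fintype.card V * Fintype.card V + Fintype.card V := by
  classical
  have e1 : ∑ a, (F a).card = (univ.filter fun p : V × V => p.2 ∈ F p.1).card := by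
    rw [Finset.card_filter, ← Finset.univ_product_univ, Finset.sum_product]
    refine Finset.sum_congr rfl fun a _ => ?_
    simp
  have e2 : ∑ b, (H b).card = (univ.filter fun p : V × V => p.1 ∈ H p.2).card := by
    rw [Finset.card_filter, ← Finset.univ_product_univ, Finset.sum_product_right]
    refine Finset.sum_congr rfl fun a _ => ?_
    simp
  rw [e1, e2, ← card_union_add_card_inter]
  have h1 : ((univ.filter fun p : V × V => p.2 ∈ F p.1) ∪
      (univ.filter fun p : V × V => p.1 ∈ H p.2)).card ≤ Fintype.card V * Fintype.card V := by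
    rw [← Fintype.card_prod]
    exact card_le_univ _
  have h2 : ((univ.filter fun p : V × V => p.2 ∈ F p.1) ∩
      (univ.filter fun p : V × V => p.1 ∈ H p.2)).card ≤ Fintype.card V := by
    have : ((univ.filter fun p : V × V => p.2 ∈ F p.1) ∩
      (univ.filter fun p : V × V => p.1 ∈ H p.2)) ⊆ univ.image fun v : V => (v, v) := by
      rintro ⟨a, b⟩ hp
      simp only [mem_inter, mem_filter, mem_univ, true_and] at hp
      have := h a b hp.1 hp.2
      subst this
      simp
    exact (card_le_card this).trans (card_image_le.trans (le_of_eq (card_univ)))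
  omega

/-- Incidence count, lower bound. -/
theorem inc_ge (F H : V → Finset V) (h : ∀ a b, b ∈ F a ∨ a ∈ H b)
    (hF : ∀ a, a ∈ F a) (hH : ∀ a, a ∈ H a) :
    Fintype.card V * Fintype.card V + Fintype.card V ≤ ∑ a, (F a).card + ∑ b, (H b).card := by
  classical
  have e1 : ∑ a, (F a).card = (univ.filter fun p : V × V => p.2 ∈ F p.1).card := by
    rw [Finset.card_filter, ← Finset.univ_product_univ, Finset.sum_product]
    refine Finset.sum_congr rfl fun a _ => ?_
    simp
  have e2 : ∑ b, (H b).card = (univ.filter fun p : V × V => p.1 ∈ H p.2).card := by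
    rw [Finset.card_filter, ← Finset.univ_product_univ, Finset.sum_product_right]
    refine Finset.sum_congr rfl fun a _ => ?_
    simp
  rw [e1, e2, ← card_union_add_card_inter]
  have h1 : ((univ.filter fun p : V × V => p.2 ∈ F p.1) ∪
      (univ.filter fun p : V × V => p.1 ∈ H p.2)) = univ := by
    ext ⟨a, b⟩
    simpa using h a b
  have h2 : Fintype.card V ≤ ((univ.filter fun p : V × V => p.2 ∈ F p.1) ∩
      (univ.filter fun p : V × V => p.1 ∈ H p.2)).card := by
    have : (univ.image fun v : V => (v, v)) ⊆ ((univ.filter fun p : V × V => p.2 ∈ F p.1) ∩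
      (univ.filter fun p : V × V => p.1 ∈ H p.2)) := by
      rintro ⟨a, b⟩ hp
      simp only [mem_image, mem_univ, true_and, Prod.mk.injEq] at hp
      obtain ⟨v, rfl, rfl⟩ := hp
      simp [hF, hH]
    have h3 := card_le_card this
    rw [card_image_of_injective _ (fun x y hxy => (Prod.mk.inj hxy).1), card_univ] at h3
    exact h3
  rw [h1, card_univ, Fintype.card_prod]
  omega

/-- Feasible pairs of the outer problem. -/
def Feas (N P T : V → Finset V) : Prop :=
  (∀ a, N a ⊆ P a) ∧ (∀ a, N a ⊆ T a) ∧ ∀ a b, b ∈ P a → a ∈ T b → a = b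

/-- The cost of a pair. -/
def cost (N P T : V → Finset V) : ℤ := ∑ a, h N (P a) + ∑ b, h N (T b)

theorem sum_upd (f : Finset V → ℤ) (P : V → Finset V) (a : V) (Y : Finset V) :
    ∑ x, f (Function.update P a Y x) = ∑ x, f (P x) - f (P a) + f Y := by
  rw [← Finset.add_sum_erase univ (fun x => f (Function.update P a Y x)) (mem_univ a),
    ← Finset.add_sum_erase univ (fun x => f (P x)) (mem_univ a)]
  have : ∑ x ∈ univ.erase a, f (Function.update P a Y x) = ∑ x ∈ univ.erase a, f (P x) := by
    refine Finset.sum_congr rfl fun x hx => ?_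
    rw [Function.update_of_ne (ne_of_mem_erase hx)]
  rw [this]
  simp only [Function.update_self]
  ring

theorem subset_cl {N : V → Finset V} (hrefl : ∀ v, v ∈ N v) (S : Finset V) : S ⊆ cl N S :=
  fun x hx => mem_cl.2 ⟨x, hx, hrefl x⟩

theorem exists_min (N : V → Finset V) (hanti : ∀ u v, v ∈ N u → u ∈ N v → u = v) :
    ∃ P T : V → Finset V, Feas N P T ∧ ∀ P' T', Feas N P' T' → cost N P T ≤ cost N P' T' := by
  classical
  obtain ⟨q, hq, hmin⟩ := Set.exists_min_image
    {q : (V → Finset V) × (V → Finset V) | Feas N q.1 q.2} (fun q => cost N q.1 q.2)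
    (Set.toFinite _) ⟨(N, N), fun _ => Subset.refl _, fun _ => Subset.refl _, hanti⟩
  exact ⟨q.1, q.2, hq, fun P' T' h' => hmin (P', T') h'⟩

/-- The relation `U`. -/
def UU (T : V → Finset V) (a : V) : Finset V := univ.filter fun b => b = a ∨ a ∉ T b

theorem mem_UU {T : V → Finset V} {a b : V} : b ∈ UU T a ↔ b = a ∨ a ∉ T b := by
  simp [UU]

/-- **The core contradiction.** -/
theorem core [Nonempty V] (N : V → Finset V) (hrefl : ∀ v, v ∈ N v)
    (hanti : ∀ u v, v ∈ N u → u ∈ N v → u = v)
    (hG : ∀ X : Finset V, cl N X ≠ X → h N (cl N X) < h N X)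
    (hsink : ∀ v, ∃ u ∈ N v, u ≠ v) : False := by
  classical
  obtain ⟨P, T, hf, hmin⟩ := exists_min N hanti
  obtain ⟨hNP, hNT, hPT⟩ := hf
  have hG' : ∀ X : Finset V, h N (cl N X) ≤ h N X := by
    intro X
    by_cases hX : cl N X = X
    · rw [hX]
    · exact (hG X hX).le
  -- rows
  have hPU : ∀ a, P a ⊆ UU T a := by
    intro a b hb
    rw [mem_UU]
    by_cases h1 : a ∈ T b
    · exact Or.inl (hPT a b hb h1).symm
    · exact Or.inr h1
  have hR : ∀ a Y, P a ⊆ Y → Y ⊆ UU T a → h N (P a) ≤ h N Y := by
    intro a Y h1 h2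
    have h3 := hmin (Function.update P a Y) T ⟨?_, hNT, ?_⟩
    · unfold cost at h3
      rw [sum_upd (h N) P a Y] at h3
      linarith
    · intro x
      by_cases hx : x = a
      · subst hx
        rw [Function.update_self]
        exact (hNP x).trans h1
      · rw [Function.update_of_ne hx]
        exact hNP x
    · intro x b hb hxT
      by_cases hx : x = a
      · subst hx
        rw [Function.update_self] at hb
        rcases mem_UU.1 (h2 hb) with h4 | h4
        · exact h4.symm
        · exact absurd hxT h4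
      · rw [Function.update_of_ne hx] at hb
        exact hPT x b hb hxT
  -- columns
  have hC : ∀ (b : V) (S : Finset V), (∀ a ∈ S, b ∈ UU T a ∧ b ∉ P a) →
      S.card ≤ (univ.filter fun z => b ∈ meet N (UU T) z ∧ ∃ a ∈ S, z ∈ N a).card := by
    intro b S hS
    have hST : Disjoint (T b) S := by
      rw [Finset.disjoint_left]
      intro a ha haS
      obtain ⟨h1, h2⟩ := hS a haS
      rcases mem_UU.1 h1 with h3 | h3
      · subst h3
        exact h2 (hNP b (hrefl b))
      · exact h3 ha
    have h3 := hmin P (Function.update T b (T b ∪ S)) ⟨hNP, ?_, ?_⟩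
    · unfold cost at h3
      rw [sum_upd (h N) T b (T b ∪ S)] at h3
      have h4 : h N (T b) ≤ h N (T b ∪ S) := by linarith
      unfold h at h4
      rw [card_union_of_disjoint hST] at h4
      have h5 : cl N (T b ∪ S) ⊆ cl N (T b) ∪
          (univ.filter fun z => b ∈ meet N (UU T) z ∧ ∃ a ∈ S, z ∈ N a) := by
        intro z hz
        rw [mem_union]
        by_cases hz1 : z ∈ cl N (T b)
        · exact Or.inl hz1
        · right
          rw [mem_filter]
          refine ⟨mem_univ _, ?_, ?_⟩
          · rw [mem_meet]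
            intro a ha
            rw [mem_UU]
            right
            intro haT
            exact hz1 (mem_cl.2 ⟨a, haT, ha⟩)
          · obtain ⟨a, ha, hza⟩ := mem_cl.1 hz
            rcases mem_union.1 ha with ha | ha
            · exact absurd (mem_cl.2 ⟨a, ha, hza⟩) hz1
            · exact ⟨a, ha, hza⟩
      have h6 := (card_le_card h5).trans (card_union_le _ _)
      push_cast at h4
      omega
    · intro x
      by_cases hx : x = b
      · subst hx
        rw [Function.update_self]
        exact (hNT x).trans subset_union_left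
      · rw [Function.update_of_ne hx]
        exact hNT x
    · intro a x hx haT
      by_cases hxb : x = b
      · subst hxb
        rw [Function.update_self, mem_union] at haT
        rcases haT with haT | haS
        · exact hPT a x hx haT
        · exact absurd hx (hS a haS).2
      · rw [Function.update_of_ne hxb] at haT
        exact hPT a x hx haT
  have hkey := key N hrefl P (UU T) hPU hR hC
  -- abbreviations
  have ham : ∀ a, a ∈ meet N P a := fun a => mem_meet.2 fun a' h' => hNP a' h'
  have haY : ∀ a, a ∈ meet N T a := fun a => mem_meet.2 fun a' h' => hNT a' h'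
  have hmM : ∀ a, meet N P a ⊆ meet N (UU T) a := by
    intro a x hx
    rw [mem_meet] at hx ⊢
    exact fun a' h' => hPU a' (hx a' h')
  -- the four counts
  have c1 := inc_le (UU T) T (by
    intro a b h1 h2
    rcases mem_UU.1 h1 with h3 | h3
    · exact h3.symm
    · exact absurd h2 h3)
  have c2 := inc_ge (meet N (UU T)) (fun b => cl N (T b)) (by
    intro z b
    by_cases hz : z ∈ cl N (T b)
    · exact Or.inr hz
    · left
      rw [mem_meet]
      intro a ha
      rw [mem_UU]
      right
      intro haT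
      exact hz (mem_cl.2 ⟨a, haT, ha⟩)) (fun a => hmM a (ham a))
      (fun a => mem_cl.2 ⟨a, hNT a (hrefl a), hrefl a⟩)
  have hfeas : ∀ a b, b ∈ cl N (meet N (UU T) a) → a ∈ cl N (meet N T b) → a = b := by
    intro a b h1 h2
    obtain ⟨y, hy, hby⟩ := mem_cl.1 h1
    obtain ⟨z, hz, haz⟩ := mem_cl.1 h2
    rw [mem_meet] at hy hz
    have h3 := hy z haz
    have h4 := hz y hby
    have hyz : y = z := by
      rcases mem_UU.1 h3 with h5 | h5
      · exact h5
      · exact absurd h4 h5
    subst hyz
    have h6 : y = a := by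
      rcases mem_UU.1 (hy a (hrefl a)) with h5 | h5
      · exact h5
      · exact absurd (hNT y haz) h5
    subst h6
    exact hPT y b (hNP y hby) (hz b (hrefl b))
  have c3 := inc_le (fun a => cl N (meet N (UU T) a)) (fun b => cl N (meet N T b)) hfeas
  have c4 := inc_ge (fun z => cl N (UU T z)) (meet N T) (by
    intro z b
    by_cases hz : z ∈ meet N T b
    · exact Or.inr hz
    · left
      rw [mem_meet] at hz
      push Not at hz
      obtain ⟨b', hb', hz'⟩ := hz
      exact mem_cl.2 ⟨b', mem_UU.2 (Or.inr hz'), hb'⟩)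
      (fun a => mem_cl.2 ⟨a, mem_UU.2 (Or.inl rfl), hrefl a⟩) haY
  -- the new pair
  have hnew := hmin (fun a => cl N (meet N P a)) (fun b => cl N (meet N T b))
    ⟨fun a x hx => mem_cl.2 ⟨a, ham a, hx⟩, fun a x hx => mem_cl.2 ⟨a, haY a, hx⟩,
      fun a b h1 h2 => hfeas a b (cl_mono (hmM a) h1) h2⟩
  have hsum : ∑ a, h N (meet N P a) + ∑ b, h N (meet N T b) ≤ cost N P T := by
    have s1 : ∀ F : V → Finset V, ∑ a, h N (F a) = ((∑ a, (cl N (F a)).card : ℕ) : ℤ)
        - ((∑ a, (F a).card : ℕ) : ℤ) := by
      intro F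
      unfold h
      rw [Finset.sum_sub_distrib]
      push_cast
      rfl
    unfold cost
    have e1 := s1 (UU T)
    have e2 := s1 (meet N (UU T))
    have e3 := s1 T
    have e4 := s1 (meet N T)
    rw [e1, e2] at hkey
    rw [e3, e4]
    omega
  have hle1 : ∀ a, h N (cl N (meet N P a)) ≤ h N (meet N P a) := fun a => hG' _
  have hle2 : ∀ a, h N (cl N (meet N T a)) ≤ h N (meet N T a) := fun a => hG' _
  have hs1 : ∑ a, h N (cl N (meet N P a)) ≤ ∑ a, h N (meet N P a) :=
    Finset.sum_le_sum fun a _ => hle1 a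
  have hs2 : ∑ a, h N (cl N (meet N T a)) ≤ ∑ a, h N (meet N T a) :=
    Finset.sum_le_sum fun a _ => hle2 a
  unfold cost at hnew hsum
  have eq1 : ∑ a, h N (cl N (meet N P a)) = ∑ a, h N (meet N P a) := by linarith
  have eq2 : ∑ a, h N (cl N (meet N T a)) = ∑ a, h N (meet N T a) := by linarith
  have eq1' := (Finset.sum_eq_sum_iff_of_le fun a _ => hle1 a).1 eq1
  have eq2' := (Finset.sum_eq_sum_iff_of_le fun a _ => hle2 a).1 eq2
  have cl1 : ∀ a, cl N (meet N P a) = meet N P a := by
    intro a
    by_contra hne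
    exact absurd (eq1' a (mem_univ a)) (hG _ hne).ne
  have cl2 : ∀ a, cl N (meet N T a) = meet N T a := by
    intro a
    by_contra hne
    exact absurd (eq2' a (mem_univ a)) (hG _ hne).ne
  -- minimal nonempty closed set
  obtain ⟨C, ⟨hCne, hCcl⟩, hCmin⟩ := Set.exists_min_image
    {C : Finset V | C.Nonempty ∧ cl N C = C} (fun C => C.card) (Set.toFinite _)
    ⟨univ, univ_nonempty, Subset.antisymm (subset_univ _) (subset_cl hrefl _)⟩
  obtain ⟨b, hb⟩ := hCne
  obtain ⟨b', hb', hne⟩ := hsink b
  have hb'C : b' ∈ C := by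
    rw [← hCcl]
    exact mem_cl.2 ⟨b, hb, hb'⟩
  have hCY : C ⊆ meet N T b' := by
    have h1 := hCmin (C ∩ meet N T b') ⟨⟨b', mem_inter.2 ⟨hb'C, haY b'⟩⟩, by
      apply Subset.antisymm _ (subset_cl hrefl _)
      intro x hx
      obtain ⟨y, hy, hxy⟩ := mem_cl.1 hx
      rw [mem_inter] at hy ⊢
      refine ⟨?_, ?_⟩
      · rw [← hCcl]
        exact mem_cl.2 ⟨y, hy.1, hxy⟩
      · rw [← cl2 b']
        exact mem_cl.2 ⟨y, hy.2, hxy⟩⟩
    have h2 := Finset.eq_of_subset_of_card_le (inter_subset_left (s₁ := C) (s₂ := meet N T b')) h1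
    rw [← h2]
    exact inter_subset_right
  have h1 : b ∈ T b' := mem_meet.1 (hCY hb) b' (hrefl b')
  have h2 : b' ∈ meet N P b := by
    rw [← cl1 b]
    exact mem_cl.2 ⟨b, ham b, hb'⟩
  have h3 : b' ∈ P b := mem_meet.1 h2 b (hrefl b)
  exact hne (hPT b b' h3 h1).symm

end Vale.Agent.P038.H811
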