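import Vale.Agent.P038.H811.Core
import Vale.Agent.P038.Defs

/-!
# Seymour's second neighbourhood conjecture: arc-minimal counterexamples and the theorem
-/

namespace Vale.Agent.P038.H811

open Finset Vale.Agent.P038 Vale.Agent.P038.H214

variable {V : Type*} [Fintype V]

/-- `D` is a counterexample: every second neighbourhood is smaller than the first one. -/
def CE (D : OGraph V) : Prop := ∀ v, (N2 D v).card < (N1 D v).card

open Classical in
/-- The set of arcs. -/
noncomputable def arcs (D : OGraph V) : Finset (V × V) := univ.filter fun p => D.arc p.1 p.2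

open Classical in
/-- The closed out-neighbourhood. -/
noncomputable def Nc (D : OGraph V) (v : V) : Finset V := univ.filter fun x => x = v ∨ D.arc v x

theorem mem_Nc {D : OGraph V} {v x : V} : x ∈ Nc D v ↔ x = v ∨ D.arc v x := by
  classical
  simp [Nc]

theorem mem_arcs {D : OGraph V} {p : V × V} : p ∈ arcs D ↔ D.arc p.1 p.2 := by
  classical
  simp [arcs]

/-- The graph with the arcs of `R` deleted. -/
def del (D : OGraph V) (R : V → V → Prop) : OGraph V where
  arc u v := D.arc u v ∧ ¬ R u v
  loopless v h := D.loopless v h.1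
  asymm u v h h' := D.asymm u v h.1 h'.1

open Classical in
/-- **(G)** -/
theorem strictG (D : OGraph V) (hD : CE D)
    (hmin : ∀ D' : OGraph V, (arcs D').card < (arcs D).card → ¬ CE D') (X : Finset V)
    (hX : cl (Nc D) X ≠ X) : h (Nc D) (cl (Nc D) X) < h (Nc D) X := by
  have hsub : ∀ S : Finset V, S ⊆ cl (Nc D) S := fun S x hx => mem_cl.2 ⟨x, hx, mem_Nc.2 (Or.inl rfl)⟩
  set L := cl (Nc D) X \ X with hL
  have hLne : L.Nonempty := by
    rw [Finset.nonempty_iff_ne_empty]
    intro h0
    rw [hL, Finset.sdiff_eq_empty_iff_subset] at h0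
    exact hX (Subset.antisymm h0 (hsub X))
  -- the function `d`
  let d : Finset V → ℤ := fun T => ((cl (Nc D) T \ X).card : ℤ) - 2 * T.card
  have hcl : cl (Nc D) (cl (Nc D) X) \ X = cl (Nc D) L \ X := by
    ext z
    simp only [mem_sdiff, and_congr_left_iff]
    intro hz
    constructor
    · intro h1
      obtain ⟨y, hy, hzy⟩ := mem_cl.1 h1
      by_cases hyX : y ∈ X
      · have h2 : z ∈ cl (Nc D) X := mem_cl.2 ⟨y, hyX, hzy⟩
        exact hsub L (mem_sdiff.2 ⟨h2, hz⟩)
      · exact mem_cl.2 ⟨y, mem_sdiff.2 ⟨hy, hyX⟩, hzy⟩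
    · exact fun h1 => cl_mono sdiff_subset h1
  have hXX : X ⊆ cl (Nc D) (cl (Nc D) X) := (hsub X).trans (hsub _)
  have hdL : d L = h (Nc D) (cl (Nc D) X) - h (Nc D) X := by
    have e1 := card_sdiff_add_card_eq_card hXX
    have e2 := card_sdiff_add_card_eq_card (hsub X)
    rw [hcl] at e1
    rw [← hL] at e2
    simp only [d, h]
    omega
  by_contra hcon
  push Not at hcon
  have hdL0 : 0 ≤ d L := by rw [hdL]; linarith
  -- minimiser over proper subsets
  obtain ⟨T, hT, hTmin⟩ := Finset.exists_min_image (L.ssubsets) d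
    ⟨∅, mem_ssubsets.2 (Finset.empty_ssubset.2 hLne)⟩
  rw [mem_ssubsets] at hT
  have hd0 : d ∅ = 0 := by simp [d, cl]
  have hTmin' : ∀ S, S ⊆ L → d T ≤ d S := by
    intro S hS
    rcases hS.eq_or_ssubset with rfl | h1
    · have := hTmin ∅ (mem_ssubsets.2 (Finset.empty_ssubset.2 hLne))
      linarith
    · exact hTmin S (mem_ssubsets.2 h1)
  -- the deletion
  let R : V → V → Prop := fun x z => x ∈ X ∧ z ∈ L ∧ z ∉ T
  refine hmin (del D R) ?_ ?_
  · obtain ⟨z, hzL, hzT⟩ := Finset.exists_of_ssubset hT
    obtain ⟨x, hx, hxz⟩ := mem_cl.1 (mem_sdiff.1 hzL).1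
    have hxz' : D.arc x z := by
      rcases mem_Nc.1 hxz with rfl | h1
      · exact absurd hx (mem_sdiff.1 hzL).2
      · exact h1
    apply card_lt_card
    rw [Finset.ssubset_iff_of_subset]
    · refine ⟨(x, z), ?_, ?_⟩
      · exact mem_arcs.2 hxz'
      · intro h3
        exact (mem_arcs.1 h3).2 ⟨hx, hzL, hzT⟩
    · intro p hp
      exact mem_arcs.2 (mem_arcs.1 hp).1
  · intro y
    have hy := hD y
    by_cases hyX : y ∈ X
    · -- deleted out-neighbours
      set Dy := (N1 D y).filter fun z => z ∈ L ∧ z ∉ T with hDy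
      have hN1 : N1 D y = N1 (del D R) y ∪ Dy := by
        ext z
        simp only [mem_N1, hDy, mem_union, mem_filter, del, R]
        tauto
      have hdisj : Disjoint (N1 (del D R) y) Dy := by
        rw [Finset.disjoint_left]
        intro z h1 h2
        rw [mem_N1] at h1
        rw [hDy, mem_filter] at h2
        exact h1.2 ⟨hyX, h2.2⟩
      have hc1 : (N1 D y).card = (N1 (del D R) y).card + Dy.card := by
        rw [hN1, card_union_of_disjoint hdisj]
      -- E
      set E := cl (Nc D) Dy \ (cl (Nc D) T ∪ X) with hE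
      have hDyT : Disjoint T Dy := by
        rw [Finset.disjoint_left]
        intro z h1 h2
        rw [hDy, mem_filter] at h2
        exact h2.2.2 h1
      have hEc : 2 * Dy.card ≤ E.card := by
        have h1 := hTmin' (T ∪ Dy) (union_subset hT.subset (by
          intro z hz
          rw [hDy, mem_filter] at hz
          exact hz.2.1))
        have h2 : cl (Nc D) (T ∪ Dy) \ X ⊆ (cl (Nc D) T \ X) ∪ E := by
          intro z hz
          rw [mem_sdiff] at hz
          obtain ⟨hz1, hz2⟩ := hz
          rw [mem_union]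
          by_cases hzT : z ∈ cl (Nc D) T
          · exact Or.inl (mem_sdiff.2 ⟨hzT, hz2⟩)
          · right
            rw [hE, mem_sdiff, mem_union]
            refine ⟨?_, ?_⟩
            · obtain ⟨w, hw, hzw⟩ := mem_cl.1 hz1
              rcases mem_union.1 hw with hw | hw
              · exact absurd (mem_cl.2 ⟨w, hw, hzw⟩) hzT
              · exact mem_cl.2 ⟨w, hw, hzw⟩
            · rintro (h3 | h3)
              · exact hzT h3
              · exact hz2 h3
        have h3 := (card_le_card h2).trans (card_union_le _ _)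
        simp only [d] at h1
        rw [card_union_of_disjoint hDyT] at h1
        push_cast at h1
        omega
      have hdisj2 : Disjoint (N2 (del D R) y) E := by
        rw [Finset.disjoint_left]
        intro x h1 h2
        rw [mem_N2] at h1
        obtain ⟨hxy, hnyx, u, hyu, hux⟩ := h1
        rw [hE, mem_sdiff, mem_union] at h2
        obtain ⟨hxD, hxn⟩ := h2
        push Not at hxn
        obtain ⟨hxT, hxX⟩ := hxn
        by_cases huX : u ∈ X
        · apply hux.2
          refine ⟨huX, ?_, fun hxT' => hxT (hsub T hxT')⟩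
          rw [hL, mem_sdiff]
          exact ⟨mem_cl.2 ⟨u, huX, mem_Nc.2 (Or.inr hux.1)⟩, hxX⟩
        · have huL : u ∈ L := by
            rw [hL, mem_sdiff]
            exact ⟨mem_cl.2 ⟨y, hyX, mem_Nc.2 (Or.inr hyu.1)⟩, huX⟩
          have huT : u ∈ T := by
            by_contra huT
            exact hyu.2 ⟨hyX, huL, huT⟩
          exact hxT (mem_cl.2 ⟨u, huT, mem_Nc.2 (Or.inr hux.1)⟩)
      have hsubs : N2 (del D R) y ∪ E ⊆ N2 D y ∪ Dy := by
        intro x hx
        rw [mem_union] at hx ⊢
        by_cases hxDy : x ∈ Dy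
        · exact Or.inr hxDy
        left
        rcases hx with hx | hx
        · rw [mem_N2] at hx ⊢
          obtain ⟨hxy, hnyx, u, hyu, hux⟩ := hx
          refine ⟨hxy, ?_, u, hyu.1, hux.1⟩
          intro hyx
          apply hxDy
          rw [hDy, mem_filter, mem_N1]
          refine ⟨hyx, ?_⟩
          by_contra hc
          exact hnyx ⟨hyx, fun hR => hc hR.2⟩
        · rw [hE, mem_sdiff, mem_union] at hx
          obtain ⟨hxD, hxn⟩ := hx
          push Not at hxn
          obtain ⟨hxT, hxX⟩ := hxn
          obtain ⟨u, huD, hux⟩ := mem_cl.1 hxD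
          have hux' : D.arc u x := by
            rcases mem_Nc.1 hux with rfl | h1
            · exact absurd huD hxDy
            · exact h1
          rw [hDy, mem_filter, mem_N1] at huD
          rw [mem_N2]
          refine ⟨?_, ?_, u, huD.1, hux'⟩
          · rintro rfl
            exact hxX hyX
          · intro hyx
            apply hxDy
            rw [hDy, mem_filter, mem_N1]
            refine ⟨hyx, ?_, fun hxT' => hxT (hsub T hxT')⟩
            rw [hL, mem_sdiff]
            exact ⟨mem_cl.2 ⟨y, hyX, mem_Nc.2 (Or.inr hyx)⟩, hxX⟩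
      have h4 := (card_le_card hsubs).trans (card_union_le _ _)
      rw [card_union_of_disjoint hdisj2] at h4
      omega
    · have h1 : N1 (del D R) y = N1 D y := by
        ext z
        simp only [mem_N1, del, R]
        tauto
      have h2 : N2 (del D R) y ⊆ N2 D y := by
        intro x hx
        rw [mem_N2] at hx ⊢
        obtain ⟨hxy, hnyx, u, hyu, hux⟩ := hx
        refine ⟨hxy, ?_, u, hyu.1, hux.1⟩
        intro hyx
        exact hnyx ⟨hyx, fun hR => hyX hR.1⟩
      rw [h1]
      exact (card_le_card h2).trans_lt hy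

/-- There is no counterexample. -/
theorem no_CE [Nonempty V] : ∀ (n : ℕ) (D : OGraph V), (arcs D).card = n → ¬ CE D := by
  classical
  intro n
  induction n using Nat.strong_induction_on with
  | _ n ih =>
    intro D hn hD
    refine core (Nc D) (fun v => mem_Nc.2 (Or.inl rfl)) ?_ (strictG D hD ?_) ?_
    · intro u v h1 h2
      rcases mem_Nc.1 h1 with h3 | h3
      · exact h3.symm
      · rcases mem_Nc.1 h2 with h4 | h4
        · exact h4
        · exact absurd h4 (D.asymm u v h3)
    · intro D' hD'
      exact ih _ (hn ▸ hD') D' rfl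
    · intro v
      have h1 : 0 < (N1 D v).card := lt_of_le_of_lt (Nat.zero_le _) (hD v)
      obtain ⟨u, hu⟩ := Finset.card_pos.1 h1
      rw [mem_N1] at hu
      exact ⟨u, mem_Nc.2 (Or.inr hu), fun h2 => D.loopless v (h2 ▸ hu)⟩

/-- **Seymour's second neighbourhood conjecture.** Every finite nonempty oriented graph has a
vertex whose second out-neighbourhood is at least as large as its first out-neighbourhood. -/
theorem seymour [Nonempty V] (D : OGraph V) : ∃ v, (N1 D v).card ≤ (N2 D v).card := by
  by_contra hcon
  push Not at hcon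
  exact no_CE _ D rfl hcon

end Vale.Agent.P038.H811
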